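import Mathlib.Algebra.Lie.Basis.Basic
import Mathlib.Algebra.Lie.Semisimple.Defs
import Mathlib.Data.Complex.Basic
import Mathlib.LinearAlgebra.Matrix.GeneralLinearGroup.Defs
import Mathlib.FieldTheory.IsAlgClosed.AlgebraicClosure
import Mathlib.Algebra.Field.ZMod

/-!
Chevalley groups and the finite groups of Lie type, after Steinberg.
-/

namespace Vale.Agent.P183CH

open Matrix Subgroup

/-- The data of a Chevalley group: a complex simple Lie algebra `L` with Chevalley generators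
`e_i, f_i, h_i` and a faithful representation `φ` by `n × n` matrices, in which the `h_i` are
diagonal integer matrices and the divided powers `e_i ^ m / m!`, `f_i ^ m / m!` are integer
matrices. -/
structure Chev where
  n : ℕ
  r : ℕ
  L : Type
  [lr : LieRing L]
  [la : LieAlgebra ℂ L]
  simple : LieAlgebra.IsSimple ℂ L
  H : LieSubalgebra ℂ L
  b : LieAlgebra.Basis (Fin r) H
  φ : L →ₗ[ℂ] Matrix (Fin n) (Fin n) ℂ
  inj : Function.Injective φ
  lie : ∀ u v, φ ⁅u, v⁆ = φ u * φ v - φ v * φ u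
  μ : Fin r → Fin n → ℤ
  E : Fin r → ℕ → Matrix (Fin n) (Fin n) ℤ
  F : Fin r → ℕ → Matrix (Fin n) (Fin n) ℤ
  h_eq : ∀ i, φ (b.h i) = diagonal fun a => (μ i a : ℂ)
  e_pow : ∀ i m, φ (b.e i) ^ m = m.factorial • (E i m).map (Int.cast : ℤ → ℂ)
  f_pow : ∀ i m, φ (b.f i) ^ m = m.factorial • (F i m).map (Int.cast : ℤ → ℂ)

namespace Chev

variable (D : Chev) {k : Type} [Field k]

/-- `x_i(t) = exp (t e_i)`. -/
def x (i : Fin D.r) (t : k) : Matrix (Fin D.n) (Fin D.n) k :=
  ∑ m ∈ Finset.range D.n, t ^ m • (D.E i m).map (Int.cast : ℤ → k)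

/-- `y_i(t) = exp (t f_i)`. -/
def y (i : Fin D.r) (t : k) : Matrix (Fin D.n) (Fin D.n) k :=
  ∑ m ∈ Finset.range D.n, t ^ m • (D.F i m).map (Int.cast : ℤ → k)

/-- The Chevalley group over `k`. -/
def grp (k : Type) [Field k] : Subgroup (GL (Fin D.n) k) :=
  closure {g | ∃ i t, g.1 = D.x i t ∨ g.1 = D.y i t}

/-- A Steinberg endomorphism in standard form: it permutes the root subgroups of the simple roots
and of their negatives, and `σ ^ e` with `e ≤ 3` is a standard Frobenius map. -/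
def Stein (p : ℕ) (σ : D.grp k →* D.grp k) : Prop :=
  (∃ (π : Equiv.Perm (Fin D.r)) (a : Fin D.r → ℕ), ∀ (g : D.grp k) i t,
    (g.1.1 = D.x i t → (σ g).1.1 = D.x (π i) (t ^ p ^ a i)) ∧
    (g.1.1 = D.y i t → (σ g).1.1 = D.y (π i) (t ^ p ^ a i))) ∧
  ∃ e f : ℕ, 0 < e ∧ e ≤ 3 ∧ 0 < f ∧ ∀ g : D.grp k, (σ^[e] g).1.1 = g.1.1.map (· ^ p ^ f)

end Chev

/-- `O^{p'}(C_G(σ))`: the subgroup generated by the `p`-elements fixed by `σ`. -/
def fixP {G : Type} [Group G] (p : ℕ) (σ : G →* G) : Subgroup G :=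
  closure {g | σ g = g ∧ ∃ m : ℕ, g ^ p ^ m = 1}

/-- `S` is a finite group of Lie type for the datum `D`: `S ≅ K / Z(K)` with `K = O^{p'}(C_G(σ))`,
where `G` is the Chevalley group over the algebraic closure of `𝔽_p` and `σ` is a Steinberg
endomorphism. -/
def IsChev (D : Chev) (S : Type) [Group S] : Prop :=
  ∃ (p : ℕ) (_ : Fact p.Prime) (σ : D.grp (AlgebraicClosure (ZMod p)) →*
      D.grp (AlgebraicClosure (ZMod p))),
    D.Stein p σ ∧ Nonempty (S ≃* (fixP p σ ⧸ center (fixP p σ)))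

end Vale.Agent.P183CH
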