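import Vale.Agent.P183CH.Defs

/-!
Interfaces: combinatorial root systems, groups with root subgroups, Steinberg endomorphisms.
-/

namespace Vale.Agent.P183CH

open Matrix Subgroup

/-- A root system in the coordinates given by the simple roots. -/
structure RS where
  r : ℕ
  A : Matrix (Fin r) (Fin r) ℤ
  Φ : Finset (Fin r → ℤ)

namespace RS

variable (R : RS)

/-- The root lattice. -/
abbrev Q : Type := Fin R.r → ℤ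

/-- The simple roots. -/
def α (i : Fin R.r) : R.Q := Pi.single i 1

/-- The pairing of `γ` with the simple coroot `j`. -/
def pr (γ : R.Q) (j : Fin R.r) : ℤ := (γ ᵥ* R.A) j

/-- The simple reflections. -/
def s (i : Fin R.r) (γ : R.Q) : R.Q := γ - R.pr γ i • R.α i

/-- The axioms of an irreducible reduced root system with a base. -/
structure Ok : Prop where
  pos : 0 < R.r
  diag : ∀ i, R.A i i = 2
  simple : ∀ i, R.α i ∈ R.Φ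
  refl : ∀ i, ∀ γ ∈ R.Φ, R.s i γ ∈ R.Φ
  sign : ∀ γ ∈ R.Φ, γ ≠ 0 ∧ (0 ≤ γ ∨ γ ≤ 0)
  red : ∀ i (m : ℤ), m • R.α i ∈ R.Φ → m = 1 ∨ m = -1
  conj : ∀ γ ∈ R.Φ, ∃ (l : List (Fin R.r)) (i : Fin R.r), γ = l.foldr R.s (R.α i)
  det : R.A.det ≠ 0
  conn : ∀ (P : Fin R.r → Prop) (i j : Fin R.r), P i → (∀ i j, P i → R.A j i ≠ 0 → P j) → P j

end RS

/-- Root elements and torus elements of a group `G`. -/
structure RG (R : RS) (k : Type) [Field k] (G : Type) [Group G] where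
  x : R.Q → k → G
  h : Fin R.r → kˣ →* G

namespace RG

variable {R : RS} {k : Type} [Field k] {G : Type} [Group G] (Γ : RG R k G)

/-- The representatives of the simple reflections. -/
def n (i : Fin R.r) : G := Γ.x (R.α i) 1 * Γ.x (-R.α i) (-1) * Γ.x (R.α i) 1

/-- The subgroup generated by the root subgroups of the roots in `S`. -/
def X (S : Set R.Q) : Subgroup G := closure {g | ∃ γ ∈ S, γ ∈ R.Φ ∧ ∃ t, g = Γ.x γ t}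

/-- The group `U`. -/
def U : Subgroup G := Γ.X {γ | 0 ≤ γ}

/-- The opposite group. -/
def V : Subgroup G := Γ.X {γ | γ ≤ 0}

/-- The torus. -/
def T : Subgroup G := closure {g | ∃ i t, g = Γ.h i t}

/-- The monomial subgroup. -/
def N : Subgroup G := Γ.T ⊔ closure (Set.range Γ.n)

/-- The Chevalley relations. -/
structure Ok : Prop where
  add : ∀ γ ∈ R.Φ, ∀ t u, Γ.x γ (t + u) = Γ.x γ t * Γ.x γ u
  gen : closure {g | ∃ i t, g = Γ.x (R.α i) t ∨ g = Γ.x (-R.α i) t} = ⊤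
  hh : ∀ i j t u, Commute (Γ.h i t) (Γ.h j u)
  hx : ∀ i t, ∀ γ ∈ R.Φ, ∀ u, Γ.h i t * Γ.x γ u * (Γ.h i t)⁻¹ = Γ.x γ ((t ^ R.pr γ i : kˣ) * u)
  nx : ∀ i, ∀ γ ∈ R.Φ, ∃ ε : ℤˣ, ∀ u,
    Γ.n i * Γ.x γ u * (Γ.n i)⁻¹ = Γ.x (R.s i γ) (((ε : ℤ) : k) * u) ∧
    Γ.n i * Γ.x (-γ) u * (Γ.n i)⁻¹ = Γ.x (-R.s i γ) (((ε : ℤ) : k) * u)
  sl : ∀ i (t : kˣ), Γ.x (R.α i) t * Γ.x (-R.α i) (-(t⁻¹ : kˣ)) * Γ.x (R.α i) t = Γ.h i t * Γ.n i
  nh : ∀ i j t, Γ.n i * Γ.h j t * (Γ.n i)⁻¹ = Γ.h j t * Γ.h i (t ^ (-R.A i j))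
  comm : ∀ γ ∈ R.Φ, ∀ δ ∈ R.Φ, 0 ≤ γ → 0 ≤ δ → ∀ t u,
    Γ.x γ t * Γ.x δ u * (Γ.x γ t)⁻¹ * (Γ.x δ u)⁻¹ ∈
      Γ.X {ε | ∃ a b : ℕ, 0 < a ∧ 0 < b ∧ ε = a • γ + b • δ}
  uniq : ∀ l : List (R.Q × k), (l.map Prod.fst).Nodup → (∀ e ∈ l, e.1 ∈ R.Φ ∧ 0 ≤ e.1) →
    (l.map fun e => Γ.x e.1 e.2).prod = 1 → ∀ e ∈ l, e.2 = 0
  tri : ∀ u ∈ Γ.U, ∀ t ∈ Γ.T, u * t ∈ Γ.V → u = 1 ∧ t = 1

/-- A representation of degree `d` with a vector of weight `m` fixed by `U`. -/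
def HW (d : ℕ) (m : R.Q) : Prop :=
  ∃ (ρ : G →* GL (Fin d) k) (v : Fin d → k), v ≠ 0 ∧ (∀ u ∈ Γ.U, (ρ u).1 *ᵥ v = v) ∧
    ∀ i t, (ρ (Γ.h i t)).1 *ᵥ v = ((t ^ R.pr m i : kˣ) : k) • v

/-- A Steinberg endomorphism. -/
structure St (p : ℕ) (σ : G →* G) (π : Equiv.Perm (Fin R.r)) (a : Fin R.r → ℕ) (e f d : ℕ) :
    Prop where
  pos : ∀ i t, σ (Γ.x (R.α i) t) = Γ.x (R.α (π i)) (t ^ p ^ a i)
  neg : ∀ i t, σ (Γ.x (-R.α i) t) = Γ.x (-R.α (π i)) (t ^ p ^ a i)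
  epos : 0 < e
  ele : e ≤ 3
  fpos : 0 < f
  frob : ∀ γ ∈ R.Φ, ∀ t, σ^[e] (Γ.x γ t) = Γ.x γ (t ^ p ^ f)
  fin : Set.Finite {g | σ g = g}
  card : Set.ncard {g | σ g = g} ≤ (p ^ f) ^ d

end RG

/-- CH1: Chevalley groups satisfy the Chevalley relations. -/
def CH1 : Prop :=
  ∀ D : Chev, ∃ (R : RS) (d : ℕ) (m : R.Q), R.Ok ∧ (∀ i, 0 < R.pr m i) ∧
    ∀ (k : Type) [Field k] [IsAlgClosed k], ∃ Γ : RG R k (D.grp k), Γ.Ok ∧ Γ.HW d m ∧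
      ∀ (p : ℕ) [Fact p.Prime] [CharP k p] (σ : D.grp k →* D.grp k), D.Stein p σ →
        ∃ π a e f, Γ.St p σ π a e f d

/-- The abstract part: for large fields the groups `K / Z(K)` belong to the class `Ψ c`. -/
def AbsLie (Ψ : ℕ → ∀ (S : Type) [Group S], Prop) : Prop :=
  ∀ (R : RS) (d : ℕ) (m : R.Q), R.Ok → (∀ i, 0 < R.pr m i) → ∃ c q₀ : ℕ,
    ∀ (p : ℕ) [Fact p.Prime] (G : Type) [Group G] (Γ : RG R (AlgebraicClosure (ZMod p)) G)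
      (σ : G →* G) π a e f, Γ.Ok → Γ.HW d m → Γ.St p σ π a e f d → q₀ < p ^ f →
      ∀ (S : Type) [Group S], IsSimpleGroup S → Nonempty (S ≃* (fixP p σ ⧸ center (fixP p σ))) →
        Ψ c S

/-- The two parts together. -/
theorem chev_of {Ψ : ℕ → ∀ (S : Type) [Group S], Prop} (h1 : CH1) (h2 : AbsLie Ψ) (D : Chev) :
    ∃ c n₀ : ℕ, ∀ (S : Type) [Group S], IsSimpleGroup S → IsChev D S → n₀ < Nat.card S →
      Ψ c S := by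
  obtain ⟨R, d, m, hR, hm, h1⟩ := h1 D
  obtain ⟨c, q₀, h2⟩ := h2 R d m hR hm
  refine ⟨c, q₀ ^ d, ?_⟩
  rintro S _ hS ⟨p, _, σ, hσ, ⟨ε⟩⟩ hc
  obtain ⟨Γ, hΓ, hw, h1⟩ := h1 (AlgebraicClosure (ZMod p))
  obtain ⟨π, a, e, f, hs⟩ := h1 p σ hσ
  refine h2 p _ Γ σ π a e f hΓ hw hs ?_ S hS ⟨ε⟩
  have hle : (fixP p σ : Set (D.grp (AlgebraicClosure (ZMod p)))) ⊆ {g | σ g = g} :=
    (closure_le (MonoidHom.eqLocus σ (MonoidHom.id _))).2 fun g hg => hg.1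
  have hf : Finite (fixP p σ) := (hs.fin.subset hle).to_subtype
  have h3 : Nat.card S ≤ Nat.card (fixP p σ) := by
    rw [Nat.card_congr ε.toEquiv]
    exact Nat.card_le_card_of_surjective _ (QuotientGroup.mk'_surjective _)
  exact lt_of_pow_lt_pow_left₀ d (Nat.zero_le _)
    (hc.trans_le (h3.trans ((Set.ncard_le_ncard hle hs.fin).trans hs.card)))

end Vale.Agent.P183CH
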